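import Claimed.Agent.R257.Infra.Defs

/-!
# R257 / Frame / Stmt : THE CONTRACT OF THEOREM f:frame (H frame.tex l.16-48)            (helper244)            -- SHARED, FROZEN

PRODUCERS: FR1 (helper13, helper3), FR2 (helper41), FR3 (helper121).      ONLY CONSUMER: w:tuple (H flattening.tex l.247-324; helper7, `R257/Fl`).
Dictionary paper -> Lean (space dimension `k ≥ 1`, `m = k + 1` families, scale `h`):
* a scale-`h` packet sum `V_i = ∑_T f_T` with sizes `s_T` and normalised compact profiles  =  `(A i).fld (s i) (cf i)` with `(A i).L = h`, `‖cf i T‖ = h^{k/2} s_T`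
  (the atom of `Infra/Defs` carries the factor `h^{-k/2}`), profiles in the class `K` (`K.J = J₀` controlled derivatives, bound `K.B`, support radius `K.R`), bounded phase space counting `K.m₀`;
* one time interval of length `≤ C₀ h²`  =  native time centres `|tc| ≤ T₀` (the consumer recentres at the origin of the time bin: a time translation changes `y` and multiplies `cf` by unimodular numbers);
* `w_T(z) = (1 + |native coordinates of z relative to the centre of T|)^{-P}`,   `B_i(z)² = ∑_T s_T² w_T(z) = Arr.env`;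
* `D_i = h^{k+2} ∑ s_T² = h² energy`;   `H_g^{-2} = (∏ A_i)^{-4/(k(k+1))}`;
* transversality WITHOUT determinants: `Transv Q ξ : ∑ |t_i| ≤ Q (‖∑ t_i ξ_i‖ + |∑ t_i|)` for all real `t` (same notion as `bdg_Trans` in `Lib/BD/Geo` and `mk_graph` in `Lib/MK/Graph`).
  For bounded frequencies `|det((2ξ_i,1))| ≥ δ ⟹ Transv (C/δ)` and `Transv Q ⟹ |det| ≥ c Q^{-(k+1)}`; the theorem is polynomial in `δ`, so both forms are equivalent.
  It is assumed ONLY for the labels themselves (no cap enlargement): if `Q ≤ h^{ε₀}` the enlargement by `C/h` costs a factor `2`; if `Q > h^{ε₀}` the elementary bound `|Y| ≤ C h^{k+2} (…)` is absorbed by `Q^C`.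
-/

set_option autoImplicit false

namespace Claimed.Agent.R257

open MeasureTheory Metric Set
open scoped ENNReal

variable {n : ℕ} {ι : Type}

/-- the packet weight `w_T(z) = (1 + |X_T(z)|)^{-P}`, `X_T` = native coordinates centred at the packet -/
noncomputable def Arr.wt (A : Arr n ι) (P : ℕ) (α : ι) (z : ST n) : ℝ :=
  (1 + ‖chart A.L (A.om α) (A.y α) (A.tc α) z‖) ^ (-(P : ℤ))

/-- the square envelope `B(z)² = ∑_T s_T² w_T(z)` with `s_T = L^{-n/2} |c_T|` -/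
noncomputable def Arr.env (A : Arr n ι) (s : Finset ι) (c : ι → ℂ) (P : ℕ) (z : ST n) : ℝ :=
  A.L ^ (-(n : ℝ)) * ∑ α ∈ s, ‖c α‖ ^ 2 * A.wt P α z

/-- quantitative affine independence of `k + 1` points of `ℝ^k` -/
def Transv {k : ℕ} (Q : ℝ) (ξ : Fin (k + 1) → E k) : Prop :=
  ∀ t : Fin (k + 1) → ℝ, ∑ i, |t i| ≤ Q * (‖∑ i, t i • ξ i‖ + |∑ i, t i|)

/-- **f:frame with explicit constants** -/
def FrameWith (k : ℕ) (c : ℝ) (K : Cls) (T₀ : ℝ) (P : ℕ) (C : ℝ) : Prop :=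
  ∀ (ι : Type) (A : Fin (k + 1) → Arr k ι) (s : Fin (k + 1) → Finset ι) (cf : Fin (k + 1) → ι → ℂ) (h Q : ℝ) (a : Fin (k + 1) → ℝ)
    (Y : Finset ((Fin k → ℤ) × ℤ)) (wz : Fin (k + 1) → (Fin k → ℤ) × ℤ → ST k),
    2 ≤ h → (∀ i, (A i).L = h) → (∀ i, (A i).In (s i) K) → (∀ i, ∀ α ∈ s i, |(A i).tc α| ≤ T₀) →
    1 ≤ Q → (∀ lb : Fin (k + 1) → ι, (∀ i, lb i ∈ s i) → Transv Q (fun i => (A i).om (lb i))) →
    (∀ i, h ^ c ≤ a i) →
    (∀ q ∈ Y, ∀ i, wz i q ∈ cube q ∧ a i ≤ ‖(A i).fld (s i) (cf i) (wz i q)‖ ∧ (A i).env (s i) (cf i) P (wz i q) ≤ 1) →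
    (Y.card : ℝ) ≤ C * Q ^ C * (∏ i, a i) ^ (-(4 / ((k : ℝ) * ((k : ℝ) + 1)))) * ∑ i, h ^ 2 * energy (s i) (cf i) / a i ^ 2

/-- **Theorem f:frame** in space dimension `k`: order of the quantifiers as in the paper (`P₀`, then `P`, then `J₀` and `C`) -/
def FrameStmt (k : ℕ) : Prop :=
  ∀ (c R B Rw T₀ : ℝ) (m₀ : ℕ), 0 < c → ∃ P₀ : ℕ, ∀ P : ℕ, P₀ ≤ P → ∃ (J₀ : ℕ) (C : ℝ), FrameWith k c ⟨J₀, R, B, Rw, m₀⟩ T₀ P C

end Claimed.Agent.R257
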