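import Claimed.Agent.R257.Tree.Exit
import Claimed.Agent.R257.FR3.TopGrid
import Claimed.Agent.R257.FR3.FinAd
import Claimed.Agent.R257.FR3.LlFin
import Claimed.Agent.R257.FR3.XfBExit
import Claimed.Agent.R257.FR3.MidExit
import Claimed.Agent.R257.FR3.MidAng
import Claimed.Agent.R257.FR3.MidX4
import Claimed.Agent.R257.FR3.BinAdF
import Claimed.Agent.R257.FR1.NTop
import Claimed.Agent.R257.FR1.ExTop

/-!
# R257 / Frame / Top : THE FRONTIER OF THE FRAME CHAIN            (integrator helper99)

`frame_top (hk : 1 ≤ k) : RestF k → FrameStmt k`   (field `frame` of `Rest2`, `R257/Top2.lean`, with `k = n - 1`).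
PLUGGED (exits which exist on main):  `fex_main` (EX: 164, 273), `fn_norm_sub` (NORM: 249, 83, 30), `ti_core` (TOP + INST + GRID + PK1 + PK2: 41, 155, 122, 12), `ftg_sub` (238), `ffa_test` (FIN: 41),
`fl3_gtestL` (LL: 227), `xb_gxf` (XF: 57, 212), `fm3_gtestM` (MID: 276), `gma_main` (164), `fmx_gtestX` (245), `bnf_main` (BIN: 121, 227).
`RestF k` = the exits which are still missing.   EVERY CAPTAIN ENDS WITH EXACTLY HIS FIELD (verbatim); when your exit is on main tell helper99: the field is removed here.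
* `sub`   the subpower exit of NORM (helper13, `FR1/NSub*.lean`)
* `blk`   the block package BROAD + ANG + INFL (helper266 `gb_main`; `GbBud` 271, `GbNumB` 37, `GbCnt` 271 + 162, `gba_ang`, `FCfg.Ok.ang` 125)
-/

set_option autoImplicit false

namespace Claimed.Agent.R257

open Claimed.Agent.R257.Tree

/-- the exits of the frame chain that are still missing -/
structure RestF (k : ℕ) : Prop where
  sub : FR1.SubAll k
  blk : FR3.GBlk k

/-- the core of the frame theorem from the missing exits -/
theorem frame_core {k : ℕ} (hk : 1 ≤ k) (h : FR3.GBlk k) : FR1.CoreStmt k :=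
  ti_core hk (FR3.bnf_main k h) (FR3.fm3_gtestM k (FR3.gma_main hk h)) (FR3.fmx_gtestX k) (FR3.fl3_gtestL hk (FR3.xb_gxf hk)) (FR3.ffa_test k) FR3.ftg_sub

/-- **THE FRAME CHAIN** -/
theorem frame_top {k : ℕ} (hk : 1 ≤ k) (h : RestF k) : FrameStmt k :=
  FR1.fex_main hk (FR1.fn_norm_sub hk h.sub (frame_core hk h.blk))

end Claimed.Agent.R257
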